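import Vale.Agent.P362.Final

namespace Vale.Agent.Results.P362.Four

open Vale.Agent.P362

/-- The optimal exponent relating randomized and quantum query complexity of total Boolean
functions equals `4` (and is attained). -/
theorem result : IsLeast admissible 4 ∧ sInf admissible = 4 :=
  ⟨⟨four_mem, fun _ h => four_le h⟩, IsLeast.csInf_eq ⟨four_mem, fun _ h => four_le h⟩⟩

end Vale.Agent.Results.P362.Four
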